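import Vale.Agent.P174.GR
import Vale.Agent.P174.Core
import Vale.Agent.P174.Sel
import Vale.Agent.P174.Red

namespace Vale.Agent.Results.P174.Howie

open Vale.Agent.P174

universe u

/-- Howie's conjecture: every nonsingular finite system of equations over a group is solvable. -/
theorem result (G : Type u) [Group G] (m n : ℕ)
    (w : Fin m → Monoid.Coprod G (FreeGroup (Fin n))) (hw : (expoMatrix w).rank = m) :
    Function.Injective
      ((QuotientGroup.mk' (Subgroup.normalClosure (Set.range w))).comp Monoid.Coprod.inl) :=
  final (core gr sel) G m n w hw

end Vale.Agent.Results.P174.Howie
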